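import Vale.Agent.P344.R2.H822.Star4

/-!
# `L4` on explicit wires
-/

set_option linter.unusedSectionVars false

namespace Vale.Agent.P344.R2.H822

open Matrix Vale.Agent.P344.R2.H715

section generic

variable {ι κ : Type} [Fintype ι] [DecidableEq ι] [Nonempty ι] [Fintype κ] [DecidableEq κ]
  [Nonempty κ]

open Classical in
/-- A matrix that is trivial outside the range of `f`. -/
theorem cc_eq_submatrix {f : κ → ι} (hf : Function.Injective f) (A : Matrix ι ι ℂ)
    (h : ∀ x y, (x ∉ Set.range f ∨ y ∉ Set.range f) → A x y = (1 : Matrix ι ι ℂ) x y) :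
    cc A = cc (A.submatrix f f) := by
  let e : ι ≃ κ ⊕ {x : ι // x ∉ Set.range f} :=
    { toFun := fun x => if hx : x ∈ Set.range f then Sum.inl hx.choose else Sum.inr ⟨x, hx⟩
      invFun := fun y => match y with
        | Sum.inl k => f k
        | Sum.inr x => x.1
      left_inv := by
        intro x
        by_cases hx : x ∈ Set.range f
        · simp only [hx, dif_pos]
          exact hx.choose_spec
        · simp [hx]
      right_inv := by
        rintro (k | ⟨x, hx⟩)
        · have hk : f k ∈ Set.range f := ⟨k, rfl⟩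
          simp only [hk, dif_pos]
          exact congrArg _ (hf hk.choose_spec)
        · simp [hx] }
  have h1 : Eqv (fromBlocks (A.submatrix f f) 0 0
      (1 : Matrix {x : ι // x ∉ Set.range f} {x : ι // x ∉ Set.range f} ℂ)) A := by
    refine ⟨e.symm, ?_⟩
    have e1 : ∀ k, e.symm (Sum.inl k) = f k := fun _ => rfl
    have e2 : ∀ x, e.symm (Sum.inr x) = x.1 := fun _ => rfl
    ext (i | ⟨i, hi⟩) (j | ⟨j, hj⟩)
    · rw [Matrix.submatrix_apply, e1, e1, fromBlocks_apply₁₁, Matrix.submatrix_apply]
    · rw [Matrix.submatrix_apply, e1, e2, fromBlocks_apply₁₂, h _ _ (Or.inr hj),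
        Matrix.one_apply_ne]
      · rfl
      · rintro rfl
        exact hj ⟨i, rfl⟩
    · rw [Matrix.submatrix_apply, e1, e2, fromBlocks_apply₂₁, h _ _ (Or.inl hi),
        Matrix.one_apply_ne]
      · rfl
      · rintro rfl
        exact hi ⟨j, rfl⟩
    · rw [Matrix.submatrix_apply, e2, e2, fromBlocks_apply₂₂, h _ _ (Or.inl hi)]
      simp [Matrix.one_apply]
  rw [← h1.cc, cc_sum_one]

end generic

/-! ### The wires -/

/-- The wires `y_{abcd}`, `x1_{bcd}`, `x2_{acd}`, `x3_{abd}`, `x4_{abc}`. -/
abbrev W (p q r s : Type) : Type :=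
  (p × q × r × s) ⊕ (q × r × s) ⊕ (p × r × s) ⊕ (p × q × s) ⊕ (p × q × r)

set_option synthInstance.maxSize 2048 in
instance W.decEq {p q r s : Type} [DecidableEq p] [DecidableEq q] [DecidableEq r]
    [DecidableEq s] : DecidableEq (W p q r s) := inferInstance

/-- `y_{abcd} += x1_{bcd} + x2_{acd} + x3_{abd} + x4_{abc}`. -/
def L4f {p q r s : Type} (x : W p q r s → ℂ) : W p q r s → ℂ
  | .inl (a, b, c, d) => x (.inl (a, b, c, d)) + x (.inr (.inl (b, c, d))) +
      x (.inr (.inr (.inl (a, c, d)))) + x (.inr (.inr (.inr (.inl (a, b, d))))) +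
      x (.inr (.inr (.inr (.inr (a, b, c)))))
  | .inr w => x (.inr w)

section emb

variable {n : ℕ} {p : Type}

/-- The position of a wire. -/
def emb (e : p → Fin n) : W p p p p → Tup n
  | .inl (a, b, c, d) => ![some (e a), some (e b), some (e c), some (e d)]
  | .inr (.inl (b, c, d)) => ![none, some (e b), some (e c), some (e d)]
  | .inr (.inr (.inl (a, c, d))) => ![some (e a), none, some (e c), some (e d)]
  | .inr (.inr (.inr (.inl (a, b, d)))) => ![some (e a), some (e b), none, some (e d)]
  | .inr (.inr (.inr (.inr (a, b, c)))) => ![some (e a), some (e b), some (e c), none]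

theorem tup_eq (x y : Tup n) : x = y ↔ x 0 = y 0 ∧ x 1 = y 1 ∧ x 2 = y 2 ∧ x 3 = y 3 := by
  constructor
  · rintro rfl
    exact ⟨rfl, rfl, rfl, rfl⟩
  · rintro ⟨h0, h1, h2, h3⟩
    funext i
    fin_cases i <;> assumption

theorem emb_injective {e : p → Fin n} (he : Function.Injective e) :
    Function.Injective (emb e) := by
  rintro (⟨a, b, c, d⟩ | ⟨b, c, d⟩ | ⟨a, c, d⟩ | ⟨a, b, d⟩ | ⟨a, b, c⟩)
    (⟨a', b', c', d'⟩ | ⟨b', c', d'⟩ | ⟨a', c', d'⟩ | ⟨a', b', d'⟩ | ⟨a', b', c'⟩) h <;>
  · rw [tup_eq] at h
    simp [emb, he.eq_iff] at h ⊢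
    try tauto

theorem not_low_iff (x : Tup n) : ¬ Low x ↔ ∃ a b c d, x = ![some a, some b, some c, some d] := by
  constructor
  · intro h
    have h1 : ∀ i, ∃ a, x i = some a := fun i =>
      Option.ne_none_iff_exists'.1 fun hi => h ⟨i, hi⟩
    obtain ⟨a, ha⟩ := h1 0
    obtain ⟨b, hb⟩ := h1 1
    obtain ⟨c, hc⟩ := h1 2
    obtain ⟨d, hd⟩ := h1 3
    refine ⟨a, b, c, d, ?_⟩
    rw [tup_eq]
    simp [ha, hb, hc, hd]
  · rintro ⟨a, b, c, d, rfl⟩ ⟨i, hi⟩
    fin_cases i <;> simp at hi

theorem ers_iff (a b c d : Fin n) (y : Tup n) :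
    (∃ i, y = ers ![some a, some b, some c, some d] i) ↔
      (y = ![none, some b, some c, some d] ∨ y = ![some a, none, some c, some d] ∨
        y = ![some a, some b, none, some d] ∨ y = ![some a, some b, some c, none]) := by
  have h : ∀ i : Fin 4, ers ![some a, some b, some c, some d] i = 
      (![![none, some b, some c, some d], ![some a, none, some c, some d],
        ![some a, some b, none, some d], ![some a, some b, some c, none]] : Fin 4 → Tup n) i := by
    intro i
    rw [tup_eq]
    fin_cases i <;> simp [ers, Function.update]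
  constructor
  · rintro ⟨i, hi⟩
    rw [h] at hi
    fin_cases i <;> simp at hi <;> tauto
  · rintro (h1 | h1 | h1 | h1)
    · exact ⟨0, by rw [h]; simpa using h1⟩
    · exact ⟨1, by rw [h]; simpa using h1⟩
    · exact ⟨2, by rw [h]; simpa using h1⟩
    · exact ⟨3, by rw [h]; simpa using h1⟩

theorem L4_low {x : Tup n} (hx : Low x) (y : Tup n) : L4 n x y = (1 : Matrix (Tup n) _ ℂ) x y := by
  rw [L4, Matrix.of_apply, Matrix.one_apply]
  by_cases h : x = y
  · simp [h]
  · simp [h, hx]

theorem L4_up (a b c d : Fin n) (y : Tup n) : L4 n ![some a, some b, some c, some d] y =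
    if (y = ![some a, some b, some c, some d] ∨
      y = ![none, some b, some c, some d] ∨ y = ![some a, none, some c, some d] ∨
        y = ![some a, some b, none, some d] ∨ y = ![some a, some b, some c, none]) then 1 else 0 := by
  classical
  have h : ¬ Low (![some a, some b, some c, some d] : Tup n) :=
    (not_low_iff _).2 ⟨a, b, c, d, rfl⟩
  rw [L4, Matrix.of_apply]
  simp only [h, not_false_eq_true, true_and, ers_iff, eq_comm (a := ![some a, some b, some c,
    some d]) (b := y)]

variable [Fintype p] [DecidableEq p] [Nonempty p]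

/-- `L4` on the wires. -/
theorem L4_sub_mulVec (e : p ≃ Fin n) (v : W p p p p → ℂ) :
    ((L4 n).submatrix (emb e) (emb e)).mulVec v = L4f v := by
  classical
  funext w
  rw [Matrix.mulVec, dotProduct]
  rcases w with ⟨a, b, c, d⟩ | w
  · simp only [Matrix.submatrix_apply]
    have h1 : emb e (Sum.inl (a, b, c, d)) = ![some (e a), some (e b), some (e c), some (e d)] :=
      rfl
    rw [h1]
    simp only [L4_up]
    simp only [Fintype.sum_sum_type]
    have k0 : ∀ x : p × p × p × p, ((emb e (Sum.inl x) =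
        ![some (e a), some (e b), some (e c), some (e d)] ∨
        emb e (Sum.inl x) = ![none, some (e b), some (e c), some (e d)] ∨
        emb e (Sum.inl x) = ![some (e a), none, some (e c), some (e d)] ∨
        emb e (Sum.inl x) = ![some (e a), some (e b), none, some (e d)] ∨
        emb e (Sum.inl x) = ![some (e a), some (e b), some (e c), none]) ↔ x = (a, b, c, d)) := by
      rintro ⟨a', b', c', d'⟩
      simp [emb]
    have k1 : ∀ x : p × p × p, ((emb e (Sum.inr (Sum.inl x)) =
        ![some (e a), some (e b), some (e c), some (e d)] ∨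
        emb e (Sum.inr (Sum.inl x)) = ![none, some (e b), some (e c), some (e d)] ∨
        emb e (Sum.inr (Sum.inl x)) = ![some (e a), none, some (e c), some (e d)] ∨
        emb e (Sum.inr (Sum.inl x)) = ![some (e a), some (e b), none, some (e d)] ∨
        emb e (Sum.inr (Sum.inl x)) = ![some (e a), some (e b), some (e c), none]) ↔
          x = (b, c, d)) := by
      rintro ⟨b', c', d'⟩
      simp [emb]
    have k2 : ∀ x : p × p × p, ((emb e (Sum.inr (Sum.inr (Sum.inl x))) =
        ![some (e a), some (e b), some (e c), some (e d)] ∨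
        emb e (Sum.inr (Sum.inr (Sum.inl x))) = ![none, some (e b), some (e c), some (e d)] ∨
        emb e (Sum.inr (Sum.inr (Sum.inl x))) = ![some (e a), none, some (e c), some (e d)] ∨
        emb e (Sum.inr (Sum.inr (Sum.inl x))) = ![some (e a), some (e b), none, some (e d)] ∨
        emb e (Sum.inr (Sum.inr (Sum.inl x))) = ![some (e a), some (e b), some (e c), none]) ↔
          x = (a, c, d)) := by
      rintro ⟨b', c', d'⟩
      simp [emb]
    have k3 : ∀ x : p × p × p, ((emb e (Sum.inr (Sum.inr (Sum.inr (Sum.inl x)))) =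
        ![some (e a), some (e b), some (e c), some (e d)] ∨
        emb e (Sum.inr (Sum.inr (Sum.inr (Sum.inl x)))) =
          ![none, some (e b), some (e c), some (e d)] ∨
        emb e (Sum.inr (Sum.inr (Sum.inr (Sum.inl x)))) =
          ![some (e a), none, some (e c), some (e d)] ∨
        emb e (Sum.inr (Sum.inr (Sum.inr (Sum.inl x)))) =
          ![some (e a), some (e b), none, some (e d)] ∨
        emb e (Sum.inr (Sum.inr (Sum.inr (Sum.inl x)))) =
          ![some (e a), some (e b), some (e c), none]) ↔ x = (a, b, d)) := by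
      rintro ⟨b', c', d'⟩
      simp [emb]
    have k4 : ∀ x : p × p × p, ((emb e (Sum.inr (Sum.inr (Sum.inr (Sum.inr x)))) =
        ![some (e a), some (e b), some (e c), some (e d)] ∨
        emb e (Sum.inr (Sum.inr (Sum.inr (Sum.inr x)))) =
          ![none, some (e b), some (e c), some (e d)] ∨
        emb e (Sum.inr (Sum.inr (Sum.inr (Sum.inr x)))) =
          ![some (e a), none, some (e c), some (e d)] ∨
        emb e (Sum.inr (Sum.inr (Sum.inr (Sum.inr x)))) =
          ![some (e a), some (e b), none, some (e d)] ∨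
        emb e (Sum.inr (Sum.inr (Sum.inr (Sum.inr x)))) =
          ![some (e a), some (e b), some (e c), none]) ↔ x = (a, b, c)) := by
      rintro ⟨b', c', d'⟩
      simp [emb]
    simp only [k0, k1, k2, k3, k4, ite_mul, one_mul, zero_mul, Finset.sum_ite_eq',
      Finset.mem_univ, if_true, L4f]
    ring
  · have hlow : Low (emb e (Sum.inr w)) := by
      rcases w with ⟨b, c, d⟩ | ⟨a, c, d⟩ | ⟨a, b, d⟩ | ⟨a, b, c⟩
      · exact ⟨0, rfl⟩
      · exact ⟨1, rfl⟩
      · exact ⟨2, rfl⟩
      · exact ⟨3, rfl⟩
    simp only [Matrix.submatrix_apply, L4_low hlow, Matrix.one_apply,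
      (emb_injective e.injective).eq_iff, ite_mul, one_mul, zero_mul, L4f]
    rw [Finset.sum_eq_single (Sum.inr w)]
    · rw [if_pos rfl]
    · intro y _ hy
      rw [if_neg (Ne.symm hy)]
    · intro h
      exact absurd (Finset.mem_univ _) h

theorem range_emb (e : p ≃ Fin n) {x y : Tup n}
    (h : x ∉ Set.range (emb e) ∨ y ∉ Set.range (emb e)) :
    L4 n x y = (1 : Matrix (Tup n) (Tup n) ℂ) x y := by
  by_cases hx : Low x
  · exact L4_low hx y
  · obtain ⟨a, b, c, d, rfl⟩ := (not_low_iff x).1 hx
    have h0 : (![some a, some b, some c, some d] : Tup n) =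
        emb e (Sum.inl (e.symm a, e.symm b, e.symm c, e.symm d)) := by
      simp [emb]
    rcases h with h | h
    · exact absurd ⟨_, h0.symm⟩ h
    · rw [L4_up, if_neg, Matrix.one_apply_ne]
      · rintro rfl
        exact h ⟨_, h0.symm⟩
      · rintro (rfl | rfl | rfl | rfl | rfl)
        · exact h ⟨_, h0.symm⟩
        · exact h ⟨Sum.inr (Sum.inl (e.symm b, e.symm c, e.symm d)), by simp [emb]⟩
        · exact h ⟨Sum.inr (Sum.inr (Sum.inl (e.symm a, e.symm c, e.symm d))), by simp [emb]⟩
        · exact h ⟨Sum.inr (Sum.inr (Sum.inr (Sum.inl (e.symm a, e.symm b, e.symm d)))),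
            by simp [emb]⟩
        · exact h ⟨Sum.inr (Sum.inr (Sum.inr (Sum.inr (e.symm a, e.symm b, e.symm c)))),
            by simp [emb]⟩

/-- The bridge. -/
theorem cc_L4_eq (e : p ≃ Fin n) {M : Matrix (W p p p p) (W p p p p) ℂ}
    (hM : ∀ v, L4f v = M.mulVec v) : cc (L4 n) = cc M := by
  have h1 : (L4 n).submatrix (emb e) (emb e) = M := by
    ext i j
    have h2 := congrFun ((L4_sub_mulVec e (Pi.single j 1)).trans (hM (Pi.single j 1))) i
    simpa using h2
  have : Nonempty (Fin n) := ⟨e (Classical.arbitrary p)⟩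
  rw [cc_eq_submatrix (emb_injective e.injective) (L4 n) (fun x y => range_emb e), h1]

end emb

end Vale.Agent.P344.R2.H822
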