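import Vale.Agent.P344.R2.H715.Fun3

/-!
# Triangular updates cost their number of nonzero entries
-/

set_option linter.unusedSectionVars false

namespace Vale.Agent.P344.R2.H822

open Matrix Vale.Agent.P344.R2.H715

section tri

variable {ι : Type} [Fintype ι] [DecidableEq ι]

open Classical in
/-- The nonzero positions of a matrix. -/
noncomputable def nz (N : Matrix ι ι ℂ) : Finset (ι × ι) :=
  Finset.univ.filter fun p => N p.1 p.2 ≠ 0

theorem mem_nz {N : Matrix ι ι ℂ} {p : ι × ι} : p ∈ nz N ↔ N p.1 p.2 ≠ 0 := by
  simp [nz]

/-- `1 + N` with `N` triangular is a product of as many transvections as `N` has nonzero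
entries. -/
theorem word_tri (rk : ι → ℕ) : ∀ (m : ℕ) (N : Matrix ι ι ℂ)
    (_ : ∀ i j, N i j ≠ 0 → rk j < rk i) (_ : (nz N).card = m), Word Slide m (1 + N) := by
  intro m
  induction m with
  | zero =>
    intro N _ hm
    have h0 : N = 0 := by
      ext i j
      by_contra hne
      have : (i, j) ∈ nz N := mem_nz.2 hne
      rw [Finset.card_eq_zero.1 hm] at this
      simp at this
    rw [h0, add_zero]
    exact Word.one
  | succ m ih =>
    intro N h hm
    have hne : (nz N).Nonempty := by
      rw [← Finset.card_pos, hm]
      exact Nat.succ_pos m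
    obtain ⟨p, hp, hmax⟩ := Finset.exists_max_image (nz N) (fun p => rk p.1) hne
    obtain ⟨i, j⟩ := p
    have hij : N i j ≠ 0 := mem_nz.1 hp
    have hne' : i ≠ j := by
      rintro rfl
      exact absurd (h i i hij) (lt_irrefl _)
    set N' : Matrix ι ι ℂ := Matrix.of fun a b => if a = i ∧ b = j then 0 else N a b with hN'
    have hN'a : ∀ a b, N' a b = if a = i ∧ b = j then 0 else N a b := fun _ _ => rfl
    have h1 : nz N' = (nz N).erase (i, j) := by
      ext ⟨a, b⟩
      rw [Finset.mem_erase, mem_nz, mem_nz, hN'a]
      simp only [ne_eq, Prod.mk.injEq]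
      by_cases hab : a = i ∧ b = j
      · simp [hab]
      · simp [hab]
    have h2 : (nz N').card = m := by
      rw [h1, Finset.card_erase_of_mem hp, hm, Nat.add_sub_cancel]
    have h3 : ∀ a b, N' a b ≠ 0 → rk b < rk a := by
      intro a b hab
      refine h a b ?_
      rw [hN'a] at hab
      split_ifs at hab with h4
      · exact absurd rfl hab
      · exact hab
    have h4 : ∀ a, N' a i = 0 := by
      intro a
      rw [hN'a]
      split_ifs with h5
      · rfl
      · by_contra h6
        have h7 := hmax (a, i) (mem_nz.2 h6)
        have h8 := h a i h6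
        simp only at h7
        omega
    have h5 : 1 + N = (1 + N') * transvection i j (N i j) := by
      have h6 : N' * Matrix.single i j (N i j) = 0 := by
        ext a b
        rw [Matrix.mul_apply]
        refine Finset.sum_eq_zero fun k _ => ?_
        by_cases hk : k = i
        · rw [hk, h4, zero_mul]
        · rw [Matrix.single_apply_of_row_ne (Ne.symm hk), mul_zero]
      have h7 : N = N' + Matrix.single i j (N i j) := by
        ext a b
        rw [Matrix.add_apply, hN'a, Matrix.single_apply]
        by_cases ha : a = i
        · by_cases hb : b = j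
          · simp [ha, hb]
          · simp [ha, hb, Ne.symm hb]
        · simp [ha, Ne.symm ha]
      have h8 : (1 + N') * transvection i j (N i j) =
          1 + (N' + Matrix.single i j (N i j)) + N' * Matrix.single i j (N i j) := by
        rw [transvection]
        noncomm_ring
      rw [h8, h6, add_zero, ← h7]
    rw [h5]
    exact (ih N' h3 h2).mul (word_transvection hne' _)

end tri

end Vale.Agent.P344.R2.H822
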