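import Vale.Agent.P344.R2.H715.Kill
import Vale.Agent.P344.R2.H822.Tri

/-!
# The fourth tensor power of a star
-/

set_option linter.unusedSectionVars false

namespace Vale.Agent.P344.R2.H822

open Matrix Vale.Agent.P344.R2.H715

/-! ### Costs of triangular updates -/

section cost

variable {ι : Type} [Fintype ι] [DecidableEq ι] [Nonempty ι]

theorem cc_tri_nz (N : Matrix ι ι ℂ) (rk : ι → ℕ) (h : ∀ i j, N i j ≠ 0 → rk j < rk i) :
    cc (1 + N) ≤ (nz N).card * cc E :=
  cc_word (word_tri rk _ N h rfl)

open Classical in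
/-- A triangular update costs its number of nonzero entries. -/
theorem cc_tri (N : Matrix ι ι ℂ) (rk : ι → ℕ) (h : ∀ i j, N i j ≠ 0 → rk j < rk i) :
    cc (1 + N) ≤ (Finset.univ.filter fun p : ι × ι => N p.1 p.2 ≠ 0).card * cc E :=
  cc_tri_nz N rk h

end cost

/-! ### The matrices -/

section star

variable {n : ℕ}

/-- Tuples. -/
abbrev Tup (n : ℕ) : Type := Fin 4 → Option (Fin n)

/-- `z` is obtained from `x` by erasing some coordinates. -/
def Le (z x : Tup n) : Prop := ∀ i, x i = z i ∨ z i = none

/-- `x` has an erased coordinate. -/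
def Low (x : Tup n) : Prop := ∃ i, x i = none

/-- The number of erased coordinates. -/
def er (x : Tup n) : ℕ := (Finset.univ.filter fun i => x i = none).card

/-- The rank. -/
def rk (x : Tup n) : ℕ := 4 - er x

theorem er_le (x : Tup n) : er x ≤ 4 := by
  refine (Finset.card_le_univ _).trans ?_
  simp

theorem er_lt {x z : Tup n} (h : Le z x) (hne : z ≠ x) : er x < er z := by
  refine Finset.card_lt_card ?_
  rw [Finset.ssubset_iff_of_subset]
  · obtain ⟨i, hi⟩ := Function.ne_iff.1 hne
    rcases h i with h1 | h1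
    · exact absurd h1.symm hi
    · refine ⟨i, by simp [h1], ?_⟩
      simp only [Finset.mem_filter, Finset.mem_univ, true_and]
      intro h2
      exact hi (h1.trans h2.symm)
  · intro i hi
    simp only [Finset.mem_filter, Finset.mem_univ, true_and] at hi ⊢
    rcases h i with h1 | h1
    · rw [← h1, hi]
    · exact h1

theorem rk_lt {x z : Tup n} (h : Le z x) (hne : z ≠ x) : rk z < rk x := by
  have h1 := er_lt h hne
  have h2 := er_le z
  unfold rk
  omega

/-- Erasing the coordinate `i`. -/
def ers (x : Tup n) (i : Fin 4) : Tup n := Function.update x i none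

theorem ers_le (x : Tup n) (i : Fin 4) : Le (ers x i) x := by
  intro j
  by_cases h : j = i
  · subst h
    right
    simp [ers]
  · left
    simp [ers, h]

open Classical in
/-- The fourth power of the star is `L4` and lower order terms. -/
noncomputable def L4 (n : ℕ) : Matrix (Tup n) (Tup n) ℂ :=
  Matrix.of fun x y => if x = y ∨ (¬ Low x ∧ ∃ i, y = ers x i) then 1 else 0

open Classical in
/-- The upper part. -/
noncomputable def NL (n : ℕ) : Matrix (Tup n) (Tup n) ℂ :=
  Matrix.of fun x y => if ¬ Low x ∧ ∃ i, y = ers x i then 1 else 0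

open Classical in
/-- The lower part. -/
noncomputable def NA (n : ℕ) : Matrix (Tup n) (Tup n) ℂ :=
  Matrix.of fun x z => if Low x ∧ Le z x ∧ z ≠ x then 1 else 0

open Classical in
/-- The preparation. -/
noncomputable def NS (n : ℕ) : Matrix (Tup n) (Tup n) ℂ :=
  Matrix.of fun y z => if (∃ i, (∀ j, y j = none ↔ j = i) ∧ ∀ j < i, z j ≠ none) ∧
    Le z y ∧ z ≠ y then 1 else 0

theorem NL_apply (x y : Tup n) [Decidable (¬ Low x ∧ ∃ i, y = ers x i)] :
    NL n x y = if ¬ Low x ∧ ∃ i, y = ers x i then 1 else 0 := by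
  unfold NL
  rw [Matrix.of_apply]
  congr

theorem NL_ne {x y : Tup n} (h : NL n x y ≠ 0) : ¬ Low x ∧ ∃ i, y = ers x i := by
  by_contra h1
  classical
  exact h (by rw [NL_apply, if_neg h1])

theorem NA_ne {x y : Tup n} (h : NA n x y ≠ 0) : Low x ∧ Le y x ∧ y ≠ x := by
  by_contra h1
  exact h (if_neg h1)

theorem NS_ne {y z : Tup n} (h : NS n y z ≠ 0) :
    (∃ i, (∀ j, y j = none ↔ j = i) ∧ ∀ j < i, z j ≠ none) ∧ Le z y ∧ z ≠ y := by
  by_contra h1
  exact h (if_neg h1)

theorem Le.low {x z : Tup n} (h : Le z x) (hx : Low x) : Low z := by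
  obtain ⟨i, hi⟩ := hx
  refine ⟨i, ?_⟩
  rcases h i with h1 | h1
  · rw [← h1, hi]
  · exact h1

theorem low_ers (x : Tup n) (i : Fin 4) : Low (ers x i) := ⟨i, by simp [ers]⟩

/-- Two matrices whose product vanishes for combinatorial reasons. -/
theorem mul_zero_of {ι : Type} [Fintype ι] {A B : Matrix ι ι ℂ}
    (h : ∀ x y z, A x y ≠ 0 → B y z ≠ 0 → False) : A * B = 0 := by
  ext x z
  rw [Matrix.mul_apply]
  refine Finset.sum_eq_zero fun y _ => ?_
  by_contra h1
  rcases mul_ne_zero_iff.1 h1 with ⟨h2, h3⟩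
  exact h x y z h2 h3

theorem NS_NL : NS n * NL n = 0 := by
  refine mul_zero_of fun x y z h1 h2 => ?_
  obtain ⟨⟨i, hi, -⟩, h3, -⟩ := NS_ne h1
  exact (NL_ne h2).1 (h3.low ⟨i, (hi i).2 rfl⟩)

theorem NA_NL : NA n * NL n = 0 := by
  refine mul_zero_of fun x y z h1 h2 => ?_
  obtain ⟨h3, h4, -⟩ := NA_ne h1
  exact (NL_ne h2).1 (h4.low h3)

theorem NS_NS : NS n * NS n = 0 := by
  refine mul_zero_of fun x y z h1 h2 => ?_
  obtain ⟨⟨i, hi, -⟩, h3, h4⟩ := NS_ne h1
  obtain ⟨⟨i', hi', -⟩, -, -⟩ := NS_ne h2
  have e1 : er x = 1 := by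
    unfold er
    rw [Finset.card_eq_one]
    refine ⟨i, ?_⟩
    ext j
    simp [hi]
  have e2 : er y = 1 := by
    unfold er
    rw [Finset.card_eq_one]
    refine ⟨i', ?_⟩
    ext j
    simp [hi']
  have := er_lt h3 h4
  omega

theorem L4_eq : L4 n = 1 + NL n := by
  ext x y
  rw [L4, Matrix.of_apply, Matrix.add_apply, Matrix.one_apply, NL, Matrix.of_apply]
  by_cases h1 : x = y
  · subst h1
    have h2 : ¬ (¬ Low x ∧ ∃ i, x = ers x i) := by
      rintro ⟨h2, i, h3⟩
      apply h2
      rw [h3]
      exact low_ers _ _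
    rw [if_pos (Or.inl rfl), if_pos rfl, if_neg h2, add_zero]
  · rw [if_neg h1, zero_add]
    by_cases h2 : ¬ Low x ∧ ∃ i, y = ers x i
    · rw [if_pos h2, if_pos (Or.inr h2)]
    · rw [if_neg h2, if_neg (by tauto)]

/-- The fourth power of the star. -/
theorem tpow_star_apply (x z : Tup n) [Decidable (Le z x)] :
    tpow (Star n) 4 x z = if Le z x then 1 else 0 := by
  rw [tpow_apply]
  simp only [H715.Star, Matrix.of_apply]
  split_ifs with h
  · exact Finset.prod_eq_one fun i _ => if_pos (h i)
  · simp only [Le, not_forall] at h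
    obtain ⟨i, hi⟩ := h
    exact Finset.prod_eq_zero (Finset.mem_univ i) (if_neg hi)

/-- The upper rows. -/
theorem upper {x : Tup n} (hx : ¬ Low x) {z : Tup n} (hz : Le z x) (hne : z ≠ x) :
    NL n x z + (NL n * NS n) x z = 1 := by
  classical
  -- the least erased coordinate
  have h1 : ∃ i, z i = none := by
    obtain ⟨i, hi⟩ := Function.ne_iff.1 hne
    rcases hz i with h2 | h2
    · exact absurd h2.symm hi
    · exact ⟨i, h2⟩
  obtain ⟨c, hc, hmin⟩ : ∃ c, z c = none ∧ ∀ j < c, z j ≠ none := by
    have h2 : (Finset.univ.filter fun i : Fin 4 => z i = none).Nonempty := by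
      obtain ⟨i, hi⟩ := h1
      exact ⟨i, by simp [hi]⟩
    refine ⟨(Finset.univ.filter fun i : Fin 4 => z i = none).min' h2, ?_, ?_⟩
    · have := Finset.min'_mem _ h2
      simpa using this
    · intro j hj hj'
      have := Finset.min'_le (Finset.univ.filter fun i : Fin 4 => z i = none) j (by simp [hj'])
      exact absurd hj (not_lt.2 this)
  have hxj : ∀ j, x j ≠ none := fun j hj => hx ⟨j, hj⟩
  have hfull : ∀ i j, ers x i j = none ↔ j = i := by
    intro i j
    by_cases hji : j = i
    · subst hji
      simp [ers]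
    · simp [ers, hji, hxj]
  -- only `ers x c` matters
  have huniq : ∀ i, Le z (ers x i) → (∀ j < i, z j ≠ none) → i = c := by
    intro i hi hi'
    have h3 : z i = none := by
      rcases hi i with h4 | h4
      · rw [← h4]
        exact (hfull i i).2 rfl
      · exact h4
    rcases lt_trichotomy i c with h4 | h4 | h4
    · exact absurd h3 (hmin i h4)
    · exact h4
    · exact absurd hc (hi' c h4)
  have hzc : Le z (ers x c) := by
    intro j
    by_cases hjc : j = c
    · subst hjc
      exact Or.inr hc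
    · rcases hz j with h4 | h4
      · left
        simpa [ers, hjc] using h4
      · exact Or.inr h4
  have h3 : (NL n * NS n) x z = if z = ers x c then 0 else 1 := by
    rw [Matrix.mul_apply, Finset.sum_eq_single (ers x c)]
    · have h4 : NL n x (ers x c) = 1 := by
        rw [NL_apply, if_pos ⟨hx, c, rfl⟩]
      rw [h4, one_mul, NS, Matrix.of_apply]
      split_ifs with h5 h6 h6
      · exact absurd h6 h5.2.2
      · rfl
      · rfl
      · exact absurd ⟨⟨c, hfull c, hmin⟩, hzc, h6⟩ h5
    · intro y _ hy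
      by_contra h4
      rcases mul_ne_zero_iff.1 h4 with ⟨h5, h6⟩
      obtain ⟨-, i, rfl⟩ := NL_ne h5
      obtain ⟨⟨i', hi', hi''⟩, h7, -⟩ := NS_ne h6
      have h8 : i' = i := by
        have h9 := (hi' i).1 ((hfull i i).2 rfl)
        exact h9.symm
      subst h8
      have h9 := huniq i' h7 hi''
      subst h9
      exact hy rfl
    · intro h4
      exact absurd (Finset.mem_univ _) h4
  rw [h3]
  split_ifs with h4
  · rw [NL_apply, if_pos ⟨hx, c, h4⟩, add_zero]
  · rw [NL_apply, if_neg, zero_add]
    rintro ⟨-, i, hi⟩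
    apply h4
    have h5 : i = c := by
      have h6 : ers x i c = none := by rw [← hi, hc]
      exact ((hfull i c).1 h6).symm
    rw [hi, h5]

/-- The decomposition. -/
theorem tpow_star_eq : tpow (Star n) 4 = (1 + NA n) * ((1 - NS n) * (L4 n * (1 + NS n))) := by
  classical
  have h1 : (1 + NA n) * ((1 - NS n) * (L4 n * (1 + NS n))) =
      1 + NA n + (NL n + NL n * NS n) + (NA n * NL n) + (NA n * NL n) * NS n
        - NS n * NL n - (NS n * NL n) * NS n - NS n * NS n - NA n * (NS n * NS n)
        - NA n * (NS n * NL n) - NA n * ((NS n * NL n) * NS n) := by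
    rw [L4_eq]
    noncomm_ring
  rw [h1, NA_NL, NS_NL, NS_NS]
  simp only [zero_mul, mul_zero, add_zero, sub_zero]
  ext x z
  rw [tpow_star_apply, Matrix.add_apply, Matrix.add_apply, Matrix.add_apply, Matrix.one_apply]
  by_cases hx : Low x
  · have h2 : NL n x z = 0 := by
      by_contra h2
      exact (NL_ne h2).1 hx
    have h3 : (NL n * NS n) x z = 0 := by
      rw [Matrix.mul_apply]
      refine Finset.sum_eq_zero fun y _ => ?_
      by_contra h3
      exact (NL_ne (mul_ne_zero_iff.1 h3).1).1 hx
    rw [h2, h3, NA, Matrix.of_apply]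
    by_cases h4 : x = z
    · subst h4
      simp [Le]
    · by_cases h5 : Le z x
      · simp [h4, h5, hx, Ne.symm h4]
      · simp [h4, h5]
  · have h2 : NA n x z = 0 := by
      by_contra h2
      exact hx (NA_ne h2).1
    rw [h2, add_zero]
    by_cases h4 : x = z
    · subst h4
      have h3 : NL n x x = 0 := by
        by_contra h3
        obtain ⟨-, i, hi⟩ := NL_ne h3
        apply hx
        rw [hi]
        exact low_ers _ _
      have h5 : (NL n * NS n) x x = 0 := by
        rw [Matrix.mul_apply]
        refine Finset.sum_eq_zero fun y _ => ?_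
        by_contra h5
        rcases mul_ne_zero_iff.1 h5 with ⟨h6, h7⟩
        obtain ⟨-, i, rfl⟩ := NL_ne h6
        exact hx ((NS_ne h7).2.1.low (low_ers _ _))
      rw [h3, h5]
      simp [Le]
    · by_cases h5 : Le z x
      · rw [upper hx h5 (Ne.symm h4)]
        simp [h4, h5]
      · have h3 : NL n x z = 0 := by
          by_contra h3
          obtain ⟨-, i, hi⟩ := NL_ne h3
          apply h5
          rw [hi]
          exact ers_le _ _
        have h6 : (NL n * NS n) x z = 0 := by
          rw [Matrix.mul_apply]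
          refine Finset.sum_eq_zero fun y _ => ?_
          by_contra h6
          rcases mul_ne_zero_iff.1 h6 with ⟨h7, h8⟩
          obtain ⟨-, i, rfl⟩ := NL_ne h7
          apply h5
          intro j
          rcases (NS_ne h8).2.1 j with h9 | h9
          · rcases ers_le x i j with h10 | h10
            · exact Or.inl (h10.trans h9)
            · right
              rw [← h9, h10]
          · exact Or.inr h9
        rw [h3, h6]
        simp [h4, h5]

/-! ### Counting -/

theorem card_low : (Finset.univ.filter fun x : Tup n => ∃ i, x i = none).card ≤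
    4 * (n + 1) ^ 3 := by
  classical
  have h1 : (Finset.univ.filter fun x : Tup n => ∃ i, x i = none) ⊆
      Finset.univ.biUnion fun i : Fin 4 => Finset.univ.filter fun x : Tup n => x i = none := by
    intro x hx
    simpa using hx
  refine (Finset.card_le_card h1).trans (Finset.card_biUnion_le.trans ?_)
  have h2 : ∀ i : Fin 4, (Finset.univ.filter fun x : Tup n => x i = none).card ≤ (n + 1) ^ 3 := by
    intro i
    have h3 : (Finset.univ : Finset (Fin 3 → Option (Fin n))).card = (n + 1) ^ 3 := by simp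
    rw [← h3]
    refine Finset.card_le_card_of_injOn (fun x => i.removeNth x) (fun _ _ => Finset.mem_univ _) ?_
    intro x hx y hy hxy
    simp only [Finset.coe_filter, Finset.mem_univ, true_and, Set.mem_ofPred_eq] at hx hy
    have h4 : i.removeNth x = i.removeNth y := hxy
    rw [← Fin.insertNth_self_removeNth i x, ← Fin.insertNth_self_removeNth i y, h4, hx, hy]
  calc ∑ i : Fin 4, (Finset.univ.filter fun x : Tup n => x i = none).card
      ≤ ∑ _i : Fin 4, (n + 1) ^ 3 := Finset.sum_le_sum fun i _ => h2 i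
    _ = 4 * (n + 1) ^ 3 := by simp

theorem card_nz {N : Matrix (Tup n) (Tup n) ℂ} (h : ∀ x z, N x z ≠ 0 → Low x ∧ Le z x) :
    (nz N).card ≤ 64 * (n + 1) ^ 3 := by
  classical
  have h1 : (nz N).card ≤ ((Finset.univ.filter fun x : Tup n => ∃ i, x i = none) ×ˢ
      (Finset.univ : Finset (Finset (Fin 4)))).card := by
    refine Finset.card_le_card_of_injOn
      (fun p => (p.1, Finset.univ.filter fun i => p.2 i = none)) ?_ ?_
    · rintro ⟨x, z⟩ hp
      have h2 := h x z (mem_nz.1 hp)
      simp only [Finset.coe_product, Set.mem_prod, Finset.coe_filter, Finset.mem_univ, true_and,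
        Set.mem_ofPred_eq, Finset.coe_univ, Set.mem_univ, and_true]
      exact h2.1
    · rintro ⟨x, z⟩ hp ⟨x', z'⟩ hp' heq
      have h2 := (h x z (mem_nz.1 hp)).2
      have h3 := (h x' z' (mem_nz.1 hp')).2
      simp only [Prod.mk.injEq] at heq
      obtain ⟨rfl, h4⟩ := heq
      have h5 : z = z' := by
        funext i
        have h6 : z i = none ↔ z' i = none := by
          have := congrArg (fun s : Finset (Fin 4) => i ∈ s) h4
          simpa using this
        rcases h2 i with h7 | h7
        · rcases h3 i with h8 | h8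
          · rw [← h7, ← h8]
          · rw [h8, h6.2 h8]
        · rw [h7, h6.1 h7]
      rw [h5]
  refine h1.trans ?_
  rw [Finset.card_product, Finset.card_univ, Fintype.card_finset, Fintype.card_fin]
  have := card_low (n := n)
  omega

theorem cc_star4_le (n : ℕ) : cc (tpow (Star n) 4) ≤ cc (L4 n) + 192 * (n + 1) ^ 3 * cc E := by
  have hE := cc_nonneg E
  have h1 : ∀ N : Matrix (Tup n) (Tup n) ℂ, (∀ x z, N x z ≠ 0 → Low x ∧ Le z x ∧ z ≠ x) →
      cc (1 + N) ≤ 64 * ((n : ℝ) + 1) ^ 3 * cc E := by
    intro N hN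
    refine (cc_tri_nz N rk fun x z h => ?_).trans ?_
    · have := hN x z h
      exact rk_lt this.2.1 this.2.2
    · refine mul_le_mul_of_nonneg_right ?_ hE
      have := card_nz (N := N) fun x z h => ⟨(hN x z h).1, (hN x z h).2.1⟩
      exact_mod_cast this
  have hS : ∀ x z, NS n x z ≠ 0 → Low x ∧ Le z x ∧ z ≠ x := by
    intro x z h
    obtain ⟨⟨i, hi, -⟩, h2, h3⟩ := NS_ne h
    exact ⟨⟨i, (hi i).2 rfl⟩, h2, h3⟩
  have h2 := h1 (NA n) fun x z h => NA_ne h
  have h3 := h1 (NS n) hS
  have h4 := h1 (- NS n) fun x z h => hS x z (by simpa using h)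
  rw [← sub_eq_add_neg] at h4
  rw [tpow_star_eq]
  have h5 := cc_mul_le (1 + NA n) ((1 - NS n) * (L4 n * (1 + NS n)))
  have h6 := cc_mul_le (1 - NS n) (L4 n * (1 + NS n))
  have h7 := cc_mul_le (L4 n) (1 + NS n)
  linarith

end star

end Vale.Agent.P344.R2.H822
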